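/-
Row 210 (S0432), layer KU (Kuwada lemma), architect helper926.   Leaf (abstract Hilbert space level):
bound of the derivative of `x ↦ ⟪U (κ x + b), flow Q x f₀⟫`.
Map of the layer: header of `R210/KU/Ifc.lean`.
-/
import Claimed.Agent.R210.HS.Ifc

set_option autoImplicit false

open Set Filter MeasureTheory
open scoped ENNReal NNReal Topology RealInnerProductSpace
open Claimed.Agent.R210.HS.Defs Claimed.Agent.R210.HS.Ifc

namespace Claimed.Agent.R210.KU.AbsDeriv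

variable {H : Type*} [NormedAddCommGroup H] [InnerProductSpace ℝ H] [CompleteSpace H] {Q : H → ℝ≥0∞}

/-- `r = κ τ + b > 0`.  Discrete Hamilton-Jacobi inequality tested against the flow (`hdisc`) ⟹ one sided bound of the
derivative of `θ x = ⟪U (κ x + b), flow Q x f₀⟫` at `τ`. -/
theorem ku_abs_deriv_le (hQ : QForm Q) (f₀ : H) (U : ℝ → H) (S : H) {τ κ b : ℝ} (hτ : 0 < τ) (hκ : 0 < κ)
    (hr : 0 < κ * τ + b) (hdom : Q (U (κ * τ + b)) < ∞)
    (hdisc : ∀ h, 0 < h → ∀ x, 0 ≤ x →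
      ⟪U (κ * τ + b + h) - U (κ * τ + b), flow Q x f₀⟫ ≤ -(h * (κ * τ + b) / (κ * τ + b + h)) * ⟪S, flow Q x f₀⟫)
    {D : ℝ} (hD : HasDerivAt (fun x => ⟪U (κ * x + b), flow Q x f₀⟫) D τ) :
    D ≤ -κ * ⟪S, flow Q τ f₀⟫ - bil Q (flow Q τ f₀) (U (κ * τ + b)) := by
  set r := κ * τ + b with hrdef
  -- (a) slope of `θ` from the right
  have ha : Tendsto (slope (fun x => ⟪U (κ * x + b), flow Q x f₀⟫) τ) (𝓝[>] τ) (𝓝 D) :=
    (hasDerivWithinAt_iff_tendsto_slope' (by simp)).1 hD.hasDerivWithinAt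
  -- (c) the two limits
  have hc1 : Tendsto (slope (fun y => ⟪flow Q y f₀, U r⟫) τ) (𝓝[>] τ)
      (𝓝 (- bil Q (flow Q τ f₀) (U r))) :=
    (hasDerivWithinAt_iff_tendsto_slope' (by simp)).1
      (hs_inner_flow_hasDerivAt hQ hτ f₀ hdom).hasDerivWithinAt
  have hc2 : Tendsto (fun x => -(κ * r / (r + κ * (x - τ))) * ⟪S, flow Q x f₀⟫) (𝓝[>] τ)
      (𝓝 (-κ * ⟪S, flow Q τ f₀⟫)) := by
    have hcont : ContinuousAt (fun x => -(κ * r / (r + κ * (x - τ))) * ⟪S, flow Q x f₀⟫) τ := by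
      apply ContinuousAt.mul
      · apply ContinuousAt.neg
        apply ContinuousAt.div continuousAt_const (by fun_prop)
        simpa using hr.ne'
      · exact (continuous_const.inner (hs_flow_continuous hQ f₀)).continuousAt
    have h2 := hcont.tendsto
    have h3 : -(κ * r / (r + κ * (τ - τ))) * ⟪S, flow Q τ f₀⟫ = -κ * ⟪S, flow Q τ f₀⟫ := by
      rw [sub_self, mul_zero, add_zero, mul_div_assoc, div_self hr.ne', mul_one]
    rw [h3] at h2
    exact h2.mono_left nhdsWithin_le_nhds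
  have hc := hc2.add hc1
  -- (b) the eventual inequality
  have hb : ∀ᶠ x in 𝓝[>] τ, slope (fun x => ⟪U (κ * x + b), flow Q x f₀⟫) τ x ≤
      -(κ * r / (r + κ * (x - τ))) * ⟪S, flow Q x f₀⟫ + slope (fun y => ⟪flow Q y f₀, U r⟫) τ x := by
    filter_upwards [self_mem_nhdsWithin] with x hx
    have hx' : 0 < x - τ := sub_pos.2 hx
    have hh : 0 < κ * (x - τ) := mul_pos hκ hx'
    have hx0 : 0 ≤ x := (hτ.trans hx).le
    have h1 := hdisc (κ * (x - τ)) hh x hx0
    have e1 : κ * x + b = r + κ * (x - τ) := by rw [hrdef]; ring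
    have hpos : 0 < r + κ * (x - τ) := add_pos hr hh
    rw [slope_def_field, slope_def_field]
    simp only [e1]
    have e2 : κ * τ + b = r := hrdef.symm
    rw [e2]
    have e3 : ⟪U (r + κ * (x - τ)), flow Q x f₀⟫ - ⟪U r, flow Q τ f₀⟫ =
        ⟪U (r + κ * (x - τ)) - U r, flow Q x f₀⟫ + (⟪flow Q x f₀, U r⟫ - ⟪flow Q τ f₀, U r⟫) := by
      rw [inner_sub_left, real_inner_comm (U r) (flow Q x f₀), real_inner_comm (U r) (flow Q τ f₀)]
      ring
    rw [e3, add_div]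
    gcongr
    rw [div_le_iff₀ hx']
    refine h1.trans (le_of_eq ?_)
    field_simp
  have := le_of_tendsto_of_tendsto ha hc hb
  linarith

end Claimed.Agent.R210.KU.AbsDeriv
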