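/-
Row 210 (S0432), layer KU (Kuwada lemma), architect helper926.   Leaf (abstract Hilbert space level):
`x ↦ ⟪U (σ x), flow Q x f₀⟫` is Lipschitz on `[s,t]`, `s > 0`.
Map of the layer: header of `R210/KU/Ifc.lean`.
-/
import Claimed.Agent.R210.HS.Ifc

set_option autoImplicit false

open Set Filter MeasureTheory
open scoped ENNReal NNReal Topology RealInnerProductSpace
open Claimed.Agent.R210.HS.Defs Claimed.Agent.R210.HS.Ifc

namespace Claimed.Agent.R210.KU.AbsLip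

variable {H : Type*} [NormedAddCommGroup H] [InnerProductSpace ℝ H] [CompleteSpace H] {Q : H → ℝ≥0∞}

/-- the flow is Lipschitz on `[s,∞)`, `s > 0` -/
theorem ku_flow_lipschitz (hQ : QForm Q) (f₀ : H) {s : ℝ} (hs : 0 < s) {x y : ℝ} (hx : s ≤ x) (hy : s ≤ y) :
    ‖flow Q x f₀ - flow Q y f₀‖ ≤ |x - y| * (‖f₀‖ / s) := by
  have hgen := hs_isGen_flow_gen hQ hs f₀
  have hn := hs_gen_flow_norm_le hQ hs f₀
  have ex : flow Q x f₀ = flow Q (x - s) (flow Q s f₀) := by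
    rw [← hs_flow_add hQ (sub_nonneg.2 hx) hs.le f₀, sub_add_cancel]
  have ey : flow Q y f₀ = flow Q (y - s) (flow Q s f₀) := by
    rw [← hs_flow_add hQ (sub_nonneg.2 hy) hs.le f₀, sub_add_cancel]
  have hl := hs_flow_lipschitz hQ hgen (y - s) (x - s)
  rw [ex, ey]
  have e : (x - s) - (y - s) = x - y := by ring
  rw [e] at hl
  exact hl.trans (mul_le_mul_of_nonneg_left hn (abs_nonneg _))

theorem ku_abs_lipschitz (hQ : QForm Q) (f₀ : H) (U : ℝ → H) {CU : ℝ}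
    (hU : ∀ r r', ‖U r - U r'‖ ≤ CU * |r - r'|) {s t κ b : ℝ} (hs : 0 < s) :
    ∃ C : ℝ≥0, LipschitzOnWith C (fun x => ⟪U (κ * x + b), flow Q x f₀⟫) (Icc s t) := by
  set M : ℝ := ‖U (κ * s + b)‖ + |CU| * |κ| * |t - s| with hM
  have hM0 : 0 ≤ M := by positivity
  have hU' : ∀ r r', ‖U r - U r'‖ ≤ |CU| * |r - r'| := fun r r' =>
    (hU r r').trans (mul_le_mul_of_nonneg_right (le_abs_self CU) (abs_nonneg _))
  have hC0 : 0 ≤ |CU| * |κ| * ‖f₀‖ + M * (‖f₀‖ / s) := by positivity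
  refine ⟨Real.toNNReal (|CU| * |κ| * ‖f₀‖ + M * (‖f₀‖ / s)), ?_⟩
  refine LipschitzOnWith.of_dist_le_mul ?_
  intro x hx y hy
  rw [Real.coe_toNNReal _ hC0, Real.dist_eq, Real.dist_eq]
  have hsplit : ⟪U (κ * x + b), flow Q x f₀⟫ - ⟪U (κ * y + b), flow Q y f₀⟫ =
      ⟪U (κ * x + b) - U (κ * y + b), flow Q x f₀⟫ +
        ⟪U (κ * y + b), flow Q x f₀ - flow Q y f₀⟫ := by
    rw [inner_sub_left, inner_sub_right]
    ring
  have h1 : |⟪U (κ * x + b) - U (κ * y + b), flow Q x f₀⟫| ≤ |CU| * |κ| * ‖f₀‖ * |x - y| := by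
    have e : (κ * x + b) - (κ * y + b) = κ * (x - y) := by ring
    have hu := hU' (κ * x + b) (κ * y + b)
    rw [e, abs_mul] at hu
    calc |⟪U (κ * x + b) - U (κ * y + b), flow Q x f₀⟫|
        ≤ ‖U (κ * x + b) - U (κ * y + b)‖ * ‖flow Q x f₀‖ := abs_real_inner_le_norm _ _
      _ ≤ (|CU| * (|κ| * |x - y|)) * ‖f₀‖ :=
          mul_le_mul hu (hs_flow_norm_le hQ x f₀) (norm_nonneg _) (by positivity)
      _ = |CU| * |κ| * ‖f₀‖ * |x - y| := by ring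
  have hUy : ‖U (κ * y + b)‖ ≤ M := by
    have e : (κ * y + b) - (κ * s + b) = κ * (y - s) := by ring
    have hu := hU' (κ * y + b) (κ * s + b)
    rw [e, abs_mul] at hu
    have hys : |y - s| ≤ |t - s| := by
      rw [abs_of_nonneg (sub_nonneg.2 hy.1), abs_of_nonneg (sub_nonneg.2 (hy.1.trans hy.2))]
      linarith [hy.2]
    have h3 : ‖U (κ * y + b)‖ ≤ ‖U (κ * s + b)‖ + ‖U (κ * y + b) - U (κ * s + b)‖ := by
      have := norm_add_le (U (κ * s + b)) (U (κ * y + b) - U (κ * s + b))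
      rwa [add_sub_cancel] at this
    have h4 : |CU| * (|κ| * |y - s|) ≤ |CU| * |κ| * |t - s| := by
      rw [mul_assoc]
      gcongr
    linarith
  have h2 : |⟪U (κ * y + b), flow Q x f₀ - flow Q y f₀⟫| ≤ M * (‖f₀‖ / s) * |x - y| := by
    calc |⟪U (κ * y + b), flow Q x f₀ - flow Q y f₀⟫|
        ≤ ‖U (κ * y + b)‖ * ‖flow Q x f₀ - flow Q y f₀‖ := abs_real_inner_le_norm _ _
      _ ≤ M * (|x - y| * (‖f₀‖ / s)) :=
          mul_le_mul hUy (ku_flow_lipschitz hQ f₀ hs hx.1 hy.1) (norm_nonneg _) hM0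
      _ = M * (‖f₀‖ / s) * |x - y| := by ring
  rw [hsplit]
  calc |⟪U (κ * x + b) - U (κ * y + b), flow Q x f₀⟫ +
        ⟪U (κ * y + b), flow Q x f₀ - flow Q y f₀⟫|
      ≤ |⟪U (κ * x + b) - U (κ * y + b), flow Q x f₀⟫| +
        |⟪U (κ * y + b), flow Q x f₀ - flow Q y f₀⟫| := abs_add_le _ _
    _ ≤ |CU| * |κ| * ‖f₀‖ * |x - y| + M * (‖f₀‖ / s) * |x - y| := add_le_add h1 h2
    _ = (|CU| * |κ| * ‖f₀‖ + M * (‖f₀‖ / s)) * |x - y| := by ring

end Claimed.Agent.R210.KU.AbsLip
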