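/-
Row 210 (S0432), layer KU (Kuwada lemma), architect helper926.   Leaf: a one sided fundamental theorem of calculus.
Map of the layer: header of `R210/KU/Ifc.lean`.
-/
import Mathlib

set_option autoImplicit false

open Set Filter MeasureTheory
open scoped ENNReal NNReal Topology

namespace Claimed.Agent.R210.KU.Ftc

/-- `θ` Lipschitz on `[a,b]`; at every interior point where `θ` is differentiable and `g < ∞` the derivative is `≤ g`;
`∫ g < ∞`.  Then `θ b - θ a ≤ ∫_a^b g`. -/
theorem ku_ftc_le {θ : ℝ → ℝ} {a b : ℝ} (hab : a ≤ b) {C : ℝ≥0} (hθ : LipschitzOnWith C θ (Icc a b))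
    {g : ℝ → ℝ≥0∞} (hg : Measurable g) (hfin : ∫⁻ r in Ioc a b, g r < ∞)
    (hd : ∀ r ∈ Ioo a b, ∀ D : ℝ, HasDerivAt θ D r → g r < ∞ → D ≤ (g r).toReal) :
    θ b - θ a ≤ (∫⁻ r in Ioc a b, g r).toReal := by
  have hac : AbsolutelyContinuousOnInterval θ a b := by
    apply LipschitzOnWith.absolutelyContinuousOnInterval (K := C)
    rw [uIcc_of_le hab]
    exact hθ
  have h1 : ∫ x in a..b, deriv θ x = θ b - θ a := hac.integral_deriv_eq_sub
  rw [intervalIntegral.integral_of_le hab] at h1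
  have hint : IntegrableOn (deriv θ) (Ioc a b) volume :=
    (intervalIntegrable_iff_integrableOn_Ioc_of_le hab).1 hac.intervalIntegrable_deriv
  have hlt : ∀ᵐ r ∂(volume.restrict (Ioc a b)), g r < ∞ := ae_lt_top hg hfin.ne
  have h2 : ∫ r in Ioc a b, (g r).toReal = (∫⁻ r in Ioc a b, g r).toReal :=
    integral_toReal hg.aemeasurable hlt
  have hint2 : Integrable (fun r => (g r).toReal) (volume.restrict (Ioc a b)) :=
    integrable_toReal_of_lintegral_ne_top hg.aemeasurable hfin.ne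
  rw [← h1, ← h2]
  refine integral_mono_ae hint hint2 ?_
  have hne : ∀ᵐ r ∂(volume.restrict (Ioc a b)), r ≠ b := by
    apply ae_restrict_of_ae
    simp [ae_iff, measure_singleton]
  have hdiff : ∀ᵐ r ∂(volume.restrict (Ioc a b)), r ∈ uIcc a b → DifferentiableAt ℝ θ r :=
    ae_restrict_of_ae hac.ae_differentiableAt
  have hmem : ∀ᵐ r ∂(volume.restrict (Ioc a b)), r ∈ Ioc a b := ae_restrict_mem measurableSet_Ioc
  filter_upwards [hlt, hne, hdiff, hmem] with r hr1 hr2 hr3 hr4
  have hr5 : r ∈ uIcc a b := by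
    rw [uIcc_of_le hab]
    exact Ioc_subset_Icc_self hr4
  exact hd r ⟨hr4.1, lt_of_le_of_ne hr4.2 hr2⟩ _ (hr3 hr5).hasDerivAt hr1

end Claimed.Agent.R210.KU.Ftc
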