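/-
Row 210 (S0432), layer KU (Kuwada lemma), architect helper926.   The Kuwada estimate at the abstract Hilbert space level.
`U r` plays the role of `Q_r u` (Hopf-Lax), `S r` of `slope(Q_r u)²/2`, `flow Q x f₀` of the heat flow `ρ_x`, `g x` of the Fisher
information of `ρ_x`.
Map of the layer: header of `R210/KU/Ifc.lean`.
-/
import Claimed.Agent.R210.KU.Ftc
import Claimed.Agent.R210.KU.AbsLip
import Claimed.Agent.R210.KU.AbsDeriv

set_option autoImplicit false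

open Set Filter MeasureTheory
open scoped ENNReal NNReal Topology RealInnerProductSpace
open Claimed.Agent.R210.HS.Defs Claimed.Agent.R210.HS.Ifc
open Claimed.Agent.R210.KU.Ftc Claimed.Agent.R210.KU.AbsLip Claimed.Agent.R210.KU.AbsDeriv

namespace Claimed.Agent.R210.KU.Abs

variable {H : Type*} [NormedAddCommGroup H] [InnerProductSpace ℝ H] [CompleteSpace H] {Q : H → ℝ≥0∞}

/-- Young's inequality in the form used below. -/
theorem ku_young {c a G e : ℝ} (hc : 0 < c) (ha : 0 ≤ a) (hG : 0 ≤ G)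
    (he : |e| ≤ Real.sqrt (2 * a) * Real.sqrt G) : -c⁻¹ * a - e ≤ c / 2 * G := by
  set p := Real.sqrt (2 * a) with hp
  set q := Real.sqrt G with hq
  have hp2 : p ^ 2 = 2 * a := Real.sq_sqrt (by positivity)
  have hq2 : q ^ 2 = G := Real.sq_sqrt hG
  have h1 : -e ≤ p * q := (neg_le_abs e).trans he
  have h2 : 0 ≤ (c * q - p) ^ 2 / (2 * c) := by positivity
  have h3 : (c * q - p) ^ 2 / (2 * c) = c / 2 * q ^ 2 - p * q + c⁻¹ * (p ^ 2 / 2) := by
    field_simp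
    ring
  rw [h3, hp2, hq2] at h2
  have h4 : c⁻¹ * (2 * a / 2) = c⁻¹ * a := by ring
  rw [h4] at h2
  linarith

/-- The estimate for `0 < s < t`. -/
theorem ku_abs_pos (hQ : QForm Q) (f₀ : H) (U S : ℝ → H) (g : ℝ → ℝ≥0∞) {CU : ℝ}
    (hU : ∀ r r', ‖U r - U r'‖ ≤ CU * |r - r'|)
    (hdom : ∀ r, Q (U r) < ∞)
    (hdisc : ∀ r h, 0 < r → 0 < h → ∀ x, 0 ≤ x →
      ⟪U (r + h) - U r, flow Q x f₀⟫ ≤ -(h * r / (r + h)) * ⟪S r, flow Q x f₀⟫)
    (hS : ∀ r x, 0 ≤ x → 0 ≤ ⟪S r, flow Q x f₀⟫)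
    (hg : Measurable g)
    (hE : ∀ x, 0 < x → g x < ∞ → ∀ r,
      |bil Q (flow Q x f₀) (U r)| ≤ Real.sqrt (2 * ⟪S r, flow Q x f₀⟫) * Real.sqrt (g x).toReal)
    {s t : ℝ} (hs : 0 < s) (hst : s < t) (hfin : ∫⁻ x in Ioc s t, g x < ∞) :
    ⟪U 1, flow Q t f₀⟫ - ⟪U 0, flow Q s f₀⟫ ≤ (t - s) / 2 * (∫⁻ x in Ioc s t, g x).toReal := by
  have hc : 0 < t - s := sub_pos.mpr hst
  set κ : ℝ := (t - s)⁻¹ with hκ
  set b : ℝ := -(s * κ) with hb
  have hκ0 : 0 < κ := inv_pos.mpr hc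
  have hκc : κ * (t - s) = 1 := inv_mul_cancel₀ hc.ne'
  have h1 : κ * t + b = 1 := by rw [hb]; linarith
  have h0 : κ * s + b = 0 := by rw [hb]; ring
  obtain ⟨C, hC⟩ := ku_abs_lipschitz hQ f₀ U hU (s := s) (t := t) (κ := κ) (b := b) hs
  set g' : ℝ → ℝ≥0∞ := fun x => ENNReal.ofReal ((t - s) / 2) * g x with hg'
  have hg'm : Measurable g' := hg.const_mul _
  have hint : ∫⁻ x in Ioc s t, g' x = ENNReal.ofReal ((t - s) / 2) * ∫⁻ x in Ioc s t, g x :=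
    lintegral_const_mul _ hg
  have hfin' : ∫⁻ x in Ioc s t, g' x < ∞ := by
    rw [hint]; exact ENNReal.mul_lt_top ENNReal.ofReal_lt_top hfin
  have key := ku_ftc_le hst.le hC hg'm hfin' (by
    intro x hx D hD hgx
    have hx0 : 0 < x := hs.trans hx.1
    have hr : 0 < κ * x + b := by
      have : κ * x + b = κ * (x - s) := by rw [hb]; ring
      rw [this]; exact mul_pos hκ0 (sub_pos.mpr hx.1)
    have hgx' : g x < ∞ := by
      by_contra hcon
      have htop : g x = ∞ := by simpa using hcon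
      have : g' x = ∞ := by
        simp only [hg', htop]
        exact ENNReal.mul_top (by simpa using hc)
      exact absurd hgx (by simp [this])
    have hd := ku_abs_deriv_le hQ f₀ U (S (κ * x + b)) hx0 hκ0 hr (hdom _)
      (fun h hh y hy => hdisc _ h hr hh y hy) hD
    have hy := ku_young hc (hS (κ * x + b) x hx0.le) ENNReal.toReal_nonneg (hE x hx0 hgx' (κ * x + b))
    have : (g' x).toReal = (t - s) / 2 * (g x).toReal := by
      simp only [hg', ENNReal.toReal_mul]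
      rw [ENNReal.toReal_ofReal (by positivity)]
    rw [this]
    exact hd.trans hy)
  simp only [h1, h0] at key
  rw [hint, ENNReal.toReal_mul, ENNReal.toReal_ofReal (by positivity)] at key
  exact key

/-- **The abstract Kuwada estimate**, `0 ≤ s < t`. -/
theorem ku_abs_main (hQ : QForm Q) (f₀ : H) (U S : ℝ → H) (g : ℝ → ℝ≥0∞) {CU : ℝ}
    (hU : ∀ r r', ‖U r - U r'‖ ≤ CU * |r - r'|)
    (hdom : ∀ r, Q (U r) < ∞)
    (hdisc : ∀ r h, 0 < r → 0 < h → ∀ x, 0 ≤ x →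
      ⟪U (r + h) - U r, flow Q x f₀⟫ ≤ -(h * r / (r + h)) * ⟪S r, flow Q x f₀⟫)
    (hS : ∀ r x, 0 ≤ x → 0 ≤ ⟪S r, flow Q x f₀⟫)
    (hg : Measurable g)
    (hE : ∀ x, 0 < x → g x < ∞ → ∀ r,
      |bil Q (flow Q x f₀) (U r)| ≤ Real.sqrt (2 * ⟪S r, flow Q x f₀⟫) * Real.sqrt (g x).toReal)
    {s t : ℝ} (hs : 0 ≤ s) (hst : s < t) (hfin : ∫⁻ x in Ioc s t, g x < ∞) :
    ⟪U 1, flow Q t f₀⟫ - ⟪U 0, flow Q s f₀⟫ ≤ (t - s) / 2 * (∫⁻ x in Ioc s t, g x).toReal := by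
  rcases hs.lt_or_eq with hs | rfl
  · exact ku_abs_pos hQ f₀ U S g hU hdom hdisc hS hg hE hs hst hfin
  · have hcont : Tendsto (fun x => ⟪U 1, flow Q t f₀⟫ - ⟪U 0, flow Q x f₀⟫) (𝓝[>] 0)
        (𝓝 (⟪U 1, flow Q t f₀⟫ - ⟪U 0, flow Q 0 f₀⟫)) := by
      have h1 : Continuous (fun x => ⟪U 1, flow Q t f₀⟫ - ⟪U 0, flow Q x f₀⟫) :=
        continuous_const.sub (continuous_const.inner (hs_flow_continuous hQ f₀))
      exact (h1.tendsto 0).mono_left nhdsWithin_le_nhds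
    refine le_of_tendsto hcont ?_
    filter_upwards [Ioo_mem_nhdsGT hst] with x hx
    have hsub : Ioc x t ⊆ Ioc 0 t := Ioc_subset_Ioc_left hx.1.le
    have hle : ∫⁻ y in Ioc x t, g y ≤ ∫⁻ y in Ioc 0 t, g y := lintegral_mono_set hsub
    have h2 := ku_abs_pos hQ f₀ U S g hU hdom hdisc hS hg hE hx.1 hx.2 (hle.trans_lt hfin)
    refine h2.trans ?_
    have h3 : (∫⁻ y in Ioc x t, g y).toReal ≤ (∫⁻ y in Ioc 0 t, g y).toReal :=
      ENNReal.toReal_mono hfin.ne hle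
    have h4 : (t - x) / 2 ≤ (t - 0) / 2 := by linarith [hx.1]
    exact mul_le_mul h4 h3 ENNReal.toReal_nonneg (by linarith)

end Claimed.Agent.R210.KU.Abs
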