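/-
Row 210 (S0432), layer KU (Kuwada lemma), architect helper926.   Leaf: the measure `dens m ρ` of a nice density.
Map of the layer: header of `R210/KU/Ifc.lean`.
-/
import Claimed.Agent.R210.Defs2

set_option autoImplicit false

open Claims.C0366 Claims.C0366.WeakHessian
open Set Filter MeasureTheory
open scoped ENNReal NNReal Topology
open Claimed.Agent.R210.Defs Claimed.Agent.R210.Defs2

namespace Claimed.Agent.R210.KU.Dens

variable {X : Type*} [MetricSpace X] [MeasurableSpace X] [BorelSpace X] {m : Measure X} {o : X} {a B : ℝ}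

theorem ku_nice_memLp {ρ : X → ℝ} (hρ : NiceDens m o a B ρ) : MemLp ρ 2 m := by
  refine (memLp_two_iff_integrable_sq hρ.meas).2 ?_
  refine Integrable.mono' (hρ.int.const_mul B) (hρ.meas.pow 2) ?_
  filter_upwards [hρ.nonneg, hρ.le] with x h0 h1
  rw [Real.norm_eq_abs, abs_of_nonneg (by positivity)]
  nlinarith

theorem ku_dens_prob {ρ : X → ℝ} (hρ : NiceDens m o a B ρ) : IsProbabilityMeasure (dens m ρ) := by
  refine ⟨?_⟩
  rw [dens, withDensity_apply _ MeasurableSet.univ, Measure.restrict_univ,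
    ← ofReal_integral_eq_lintegral_ofReal hρ.int hρ.nonneg, hρ.mass, ENNReal.ofReal_one]

theorem ku_integral_dens {ρ : X → ℝ} (hρ : NiceDens m o a B ρ) (f : X → ℝ) :
    ∫ x, f x ∂(dens m ρ) = ∫ x, f x * ρ x ∂m := by
  rw [dens, integral_withDensity_eq_integral_toReal_smul₀ hρ.meas.aemeasurable.ennreal_ofReal
    (Eventually.of_forall fun x => ENNReal.ofReal_lt_top)]
  refine integral_congr_ae ?_
  filter_upwards [hρ.nonneg] with x h0
  rw [ENNReal.toReal_ofReal h0, smul_eq_mul, mul_comm]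

theorem ku_dens_secondMoment (ha : GoodExp m o a) {ρ : X → ℝ} (hρ : NiceDens m o a B ρ) :
    HasSecondMoment (dens m ρ) := by
  obtain ⟨ha0, hexp⟩ := ha
  refine ⟨o, ?_⟩
  have hmeas : Measurable (fun x : X => (edist x o) ^ 2) := (measurable_edist_left).pow_const 2
  rw [dens, lintegral_withDensity_eq_lintegral_mul₀ hρ.meas.aemeasurable.ennreal_ofReal hmeas.aemeasurable]
  set C : ℝ := 24 / (7 * a / 4) ^ 4 with hC
  set F : X → ℝ := fun x => (Real.exp (2 * a * dist x o) * ρ x ^ 2
    + C * Real.exp (-(a / 4) * dist x o)) / 2 with hF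
  have hFint : Integrable F m := (hρ.tail.add (hexp.const_mul C)).div_const 2
  have hbound : ∀ᵐ x ∂m, ((fun x => ENNReal.ofReal (ρ x)) * fun x => (edist x o) ^ 2) x
      ≤ ENNReal.ofReal (F x) := by
    filter_upwards [hρ.nonneg] with x h0
    have hd : 0 ≤ dist x o := dist_nonneg
    set d := dist x o with hdd
    rw [Pi.mul_apply, edist_dist, ← ENNReal.ofReal_pow hd, ← ENNReal.ofReal_mul h0]
    refine ENNReal.ofReal_le_ofReal ?_
    -- AM-GM
    have e1 : Real.exp (a * d) * Real.exp (-(a * d)) = 1 := by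
      rw [← Real.exp_add]; simp
    have e2 : Real.exp (2 * a * d) = Real.exp (a * d) ^ 2 := by
      rw [sq, ← Real.exp_add]; congr 1; ring
    have e3 : Real.exp (-(2 * a * d)) = Real.exp (-(a * d)) ^ 2 := by
      rw [sq, ← Real.exp_add]; congr 1; ring
    have amgm : ρ x * d ^ 2 ≤ (Real.exp (2 * a * d) * ρ x ^ 2 + d ^ 4 * Real.exp (-(2 * a * d))) / 2 := by
      have h1 : ρ x * d ^ 2 = (Real.exp (a * d) * ρ x) * (d ^ 2 * Real.exp (-(a * d))) := by
        calc ρ x * d ^ 2 = ρ x * d ^ 2 * (Real.exp (a * d) * Real.exp (-(a * d))) := by rw [e1, mul_one]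
          _ = _ := by ring
      rw [h1, e2, e3]
      nlinarith [sq_nonneg (Real.exp (a * d) * ρ x - d ^ 2 * Real.exp (-(a * d)))]
    have hc : 0 < 7 * a / 4 := by positivity
    have h4 : (7 * a / 4 * d) ^ 4 / 24 ≤ Real.exp (7 * a / 4 * d) := by
      have := Real.pow_div_factorial_le_exp (7 * a / 4 * d) (by positivity) 4
      simpa [Nat.factorial] using this
    have h5 : d ^ 4 ≤ C * Real.exp (7 * a / 4 * d) := by
      rw [hC, div_mul_eq_mul_div, le_div_iff₀ (by positivity)]
      rw [mul_pow] at h4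
      rw [div_le_iff₀ (by norm_num)] at h4
      linarith
    have h6 : d ^ 4 * Real.exp (-(2 * a * d)) ≤ C * Real.exp (-(a / 4) * d) := by
      have e4 : Real.exp (-(a / 4) * d) = Real.exp (7 * a / 4 * d) * Real.exp (-(2 * a * d)) := by
        rw [← Real.exp_add]; congr 1; ring
      rw [e4, ← mul_assoc]
      exact mul_le_mul_of_nonneg_right h5 (Real.exp_pos _).le
    show ρ x * d ^ 2 ≤ (Real.exp (2 * a * d) * ρ x ^ 2 + C * Real.exp (-(a / 4) * d)) / 2
    linarith
  calc ∫⁻ x, ((fun x => ENNReal.ofReal (ρ x)) * fun x => (edist x o) ^ 2) x ∂m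
      ≤ ∫⁻ x, ENNReal.ofReal (F x) ∂m := lintegral_mono_ae hbound
    _ < ∞ := hFint.lintegral_lt_top

end Claimed.Agent.R210.KU.Dens
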