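/-
Row 210 (S0432), layer KU (Kuwada lemma), architect helper926.   Leaf: plain functions versus elements of `L²(m)`.
Map of the layer: header of `R210/KU/Ifc.lean`.
-/
import Claimed.Agent.R210.Defs2

set_option autoImplicit false

open Claims.C0366 Claims.C0366.WeakHessian
open Set Filter MeasureTheory
open scoped ENNReal NNReal Topology RealInnerProductSpace
open Claimed.Agent.R210.Defs Claimed.Agent.R210.Defs2 Claimed.Agent.R210.HS.Defs

namespace Claimed.Agent.R210.KU.Lp

variable {X : Type*} [MetricSpace X] [MeasurableSpace X] [BorelSpace X] {m : Measure X}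

open scoped Classical in
/-- The class in `L²(m)` of a plain function (`0` if the function is not in `L²`). -/
noncomputable def ku_toLp (m : Measure X) (f : X → ℝ) : Lp ℝ 2 m := if h : MemLp f 2 m then h.toLp f else 0

theorem ku_toLp_eq {f : X → ℝ} (h : MemLp f 2 m) : ku_toLp m f = h.toLp f := by
  unfold ku_toLp
  rw [dif_pos h]

theorem ku_toLp_coe {f : X → ℝ} (h : MemLp f 2 m) : (ku_toLp m f : X → ℝ) =ᵐ[m] f := by
  rw [ku_toLp_eq h]
  exact h.coeFn_toLp

theorem ku_heatF_eq {f : X → ℝ} (h : MemLp f 2 m) (t : ℝ) :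
    heatF m t f = ((flow (ChL2 m) t (ku_toLp m f) : Lp ℝ 2 m) : X → ℝ) := by
  rw [ku_toLp_eq h]
  unfold heatF
  rw [dif_pos h]

theorem ku_inner_toLp {f : X → ℝ} (h : MemLp f 2 m) (g : Lp ℝ 2 m) :
    ⟪ku_toLp m f, g⟫ = ∫ x, f x * (g : X → ℝ) x ∂m := by
  rw [MeasureTheory.L2.inner_def]
  refine integral_congr_ae ?_
  filter_upwards [ku_toLp_coe h] with x hx
  rw [hx]
  simp [mul_comm]

theorem ku_toLp_sub {f g : X → ℝ} (hf : MemLp f 2 m) (hg : MemLp g 2 m) :
    ku_toLp m f - ku_toLp m g = ku_toLp m (fun x => f x - g x) := by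
  have hfg : MemLp (fun x => f x - g x) 2 m := hf.sub hg
  rw [ku_toLp_eq hf, ku_toLp_eq hg, ku_toLp_eq hfg]
  exact (MemLp.toLp_sub hf hg).symm

/-- a bounded measurable function vanishing outside a set of finite measure is in `L²` -/
theorem ku_memLp_of_bdd {f : X → ℝ} (hf : AEStronglyMeasurable f m) {A : Set X} (hA : m A < ∞) {c : ℝ}
    (hc : ∀ x, |f x| ≤ c) (h0 : ∀ x, x ∉ A → f x = 0) : MemLp f 2 m := by
  set A' := toMeasurable m A with hA'
  have hmA' : MeasurableSet A' := measurableSet_toMeasurable m A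
  have hA'fin : m A' < ∞ := by rw [hA', measure_toMeasurable]; exact hA
  have hind : f = A'.indicator f := by
    funext x
    by_cases hx : x ∈ A'
    · rw [indicator_of_mem hx]
    · rw [indicator_of_notMem hx]
      exact h0 x (fun hxA => hx (subset_toMeasurable m A hxA))
  rw [hind, memLp_indicator_iff_restrict hmA']
  have : IsFiniteMeasure (m.restrict A') := ⟨by rw [Measure.restrict_apply_univ]; exact hA'fin⟩
  exact MemLp.of_bound hf.restrict c (Eventually.of_forall (fun x => by rw [Real.norm_eq_abs]; exact hc x))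

theorem ku_norm_toLp_le {f : X → ℝ} (hf : AEStronglyMeasurable f m) {A : Set X} (hA : m A < ∞) {c : ℝ}
    (hc : ∀ x, |f x| ≤ c) (h0 : ∀ x, x ∉ A → f x = 0) : ‖ku_toLp m f‖ ≤ c * Real.sqrt (m A).toReal := by
  have hmem : MemLp f 2 m := ku_memLp_of_bdd hf hA hc h0
  set A' := toMeasurable m A with hA'
  have hmA' : MeasurableSet A' := measurableSet_toMeasurable m A
  have hA'eq : m A' = m A := by rw [hA', measure_toMeasurable]
  have hA'fin : m A' < ∞ := by rw [hA'eq]; exact hA
  by_cases hX : Nonempty X
  · obtain ⟨x0⟩ := hX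
    have hc0 : 0 ≤ c := le_trans (abs_nonneg _) (hc x0)
    have hsq : ‖ku_toLp m f‖ ^ 2 ≤ (c * Real.sqrt (m A).toReal) ^ 2 := by
      rw [← real_inner_self_eq_norm_sq, ku_inner_toLp hmem, mul_pow, Real.sq_sqrt ENNReal.toReal_nonneg]
      have h1 : ∫ x, f x * (ku_toLp m f : X → ℝ) x ∂m = ∫ x, f x * f x ∂m := by
        refine integral_congr_ae ?_
        filter_upwards [ku_toLp_coe hmem] with x hx
        rw [hx]
      rw [h1]
      have h2 : ∫ x, f x * f x ∂m ≤ ∫ x, A'.indicator (fun _ => c ^ 2) x ∂m := by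
        refine integral_mono_of_nonneg (Eventually.of_forall (fun x => mul_self_nonneg _)) ?_
          (Eventually.of_forall (fun x => ?_))
        · exact (integrable_indicator_iff hmA').2 (integrableOn_const (hs := hA'fin.ne))
        · by_cases hx : x ∈ A'
          · simp only [indicator_of_mem hx]
            have := hc x
            have h3 : f x * f x = |f x| ^ 2 := by rw [sq_abs]; ring
            rw [h3]
            exact pow_le_pow_left₀ (abs_nonneg _) this 2
          · simp only [indicator_of_notMem hx]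
            rw [h0 x (fun hxA => hx (subset_toMeasurable m A hxA))]
            simp
      refine h2.trans (le_of_eq ?_)
      rw [integral_indicator hmA', setIntegral_const, Measure.real, hA'eq]
      simp [mul_comm]
    exact (abs_le_of_sq_le_sq' hsq (mul_nonneg hc0 (Real.sqrt_nonneg _))).2
  · have hE : IsEmpty X := not_nonempty_iff.1 hX
    have hm : m A = 0 := by
      have : A = ∅ := Set.eq_empty_of_isEmpty A
      rw [this]; simp
    have hz : ku_toLp m f = 0 := by
      apply Lp.ext
      exact Eventually.of_forall (fun x => (hE.false x).elim)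
    rw [hz, hm]
    simp

end Claimed.Agent.R210.KU.Lp
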