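/-
Row 210 (S0432), layer KU (Kuwada lemma), architect helper926.   Leaf: the Hopf-Lax semigroup as a curve in `L²(m)`.
`u ≥ 0` is `L`-Lipschitz with compact support.   `U r = ku_toLp m (hopfLax r u)`, `S r = ku_toLp m (ku_sl u r)`.
Map of the layer: header of `R210/KU/Ifc.lean`.
-/
import Claimed.Agent.R210.KU.Lp
import Claimed.Agent.R210.HL.Ifc
import Claimed.Agent.R210.RS.Ifc

set_option autoImplicit false

open Claims.C0366 Claims.C0366.WeakHessian
open Set Filter MeasureTheory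
open scoped ENNReal NNReal Topology RealInnerProductSpace
open Claimed.Agent.R210.Defs Claimed.Agent.R210.Defs2 Claimed.Agent.R210.HS.Defs
open Claimed.Agent.R210.KU.Lp

namespace Claimed.Agent.R210.KU.Hopf

variable {X : Type*} [MetricSpace X] [MeasurableSpace X] [BorelSpace X] {m : Measure X}

/-- `slope(Q_r u)² / 2` -/
noncomputable def ku_sl (u : X → ℝ) (r : ℝ) (y : X) : ℝ := (localSlope (hopfLax r u) y).toReal ^ 2 / 2

theorem ku_sl_nonneg (u : X → ℝ) (r : ℝ) (y : X) : 0 ≤ ku_sl u r y := by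
  unfold ku_sl; positivity

/-- `Q_r u ∈ LipC` -/
theorem ku_hopf_LipC {u : X → ℝ} (hu : LipC u) (h0 : ∀ x, 0 ≤ u x) (r : ℝ) : LipC (hopfLax r u) := by
  obtain ⟨⟨L, hL⟩, hc⟩ := hu
  exact ⟨⟨2 * L, HL.Ifc.hl1_lipschitz hL r⟩, HL.Ifc.hl4_hasCompactSupport hL h0 hc r⟩

theorem ku_memLp_LipC (hm : FiniteOnBoundedSets m) {u : X → ℝ} (hu : LipC u) : MemLp u 2 m := by
  refine RS.Ifc.rs_memLp_of_bddSupp hm hu.1 ?_
  exact hu.2.isCompact.isBounded.subset (subset_tsupport u)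

theorem ku_memLp_hopf (hm : FiniteOnBoundedSets m) {u : X → ℝ} (hu : LipC u) (h0 : ∀ x, 0 ≤ u x) (r : ℝ) :
    MemLp (hopfLax r u) 2 m := ku_memLp_LipC hm (ku_hopf_LipC hu h0 r)

/-- the slope of a function vanishes outside its closed support -/
theorem ku_localSlope_eq_zero {f : X → ℝ} {y : X} (hy : y ∉ tsupport f) : localSlope f y = 0 := by
  unfold localSlope
  refine le_antisymm ?_ bot_le
  refine Filter.limsup_le_of_le (hf := by isBoundedDefault) ?_
  have hopen : (tsupport f)ᶜ ∈ 𝓝 y := (isClosed_tsupport f).isOpen_compl.mem_nhds hy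
  filter_upwards [mem_nhdsWithin_of_mem_nhds hopen] with z hz
  rw [image_eq_zero_of_notMem_tsupport hz, image_eq_zero_of_notMem_tsupport hy]
  simp

theorem ku_memLp_sl (hm : FiniteOnBoundedSets m) {u : X → ℝ} (hu : LipC u) (h0 : ∀ x, 0 ≤ u x) (r : ℝ) :
    MemLp (ku_sl u r) 2 m := by
  obtain ⟨⟨L, hL⟩, hc⟩ := hu
  have hcont : Continuous (hopfLax r u) := (HL.Ifc.hl1_lipschitz hL r).continuous
  have hmeas : Measurable (ku_sl u r) :=
    ((HL.Ifc.hl6_measurable_localSlope hcont).ennreal_toReal.pow_const 2).div_const 2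
  have hA : m (tsupport u) < ∞ := hm _ hc.isCompact.isBounded
  refine ku_memLp_of_bdd (A := tsupport u) (c := 2 * (L : ℝ) ^ 2) hmeas.aestronglyMeasurable hA ?_ ?_
  · intro x
    rw [abs_of_nonneg (ku_sl_nonneg u r x)]
    have h1 := HL.Ifc.hl2_slope_toReal_le hL r x
    have h2 : 0 ≤ (localSlope (hopfLax r u) x).toReal := ENNReal.toReal_nonneg
    unfold ku_sl
    nlinarith
  · intro x hx
    have hx' : x ∉ tsupport (hopfLax r u) :=
      fun h => hx (closure_mono (HL.Ifc.hl4_support_subset hL h0 r) h)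
    unfold ku_sl
    rw [ku_localSlope_eq_zero hx']
    simp

/-- `r ↦ Q_r u` is Lipschitz in `L²(m)` -/
theorem ku_U_lip (hm : FiniteOnBoundedSets m) {u : X → ℝ} (hu : LipC u) (h0 : ∀ x, 0 ≤ u x) :
    ∃ CU : ℝ, ∀ r r', ‖ku_toLp m (hopfLax r u) - ku_toLp m (hopfLax r' u)‖ ≤ CU * |r - r'| := by
  have hu' := hu
  obtain ⟨⟨L, hL⟩, hc⟩ := hu
  have hA : m (tsupport u) < ∞ := hm _ hc.isCompact.isBounded
  refine ⟨2 * (L : ℝ) ^ 2 * Real.sqrt (m (tsupport u)).toReal, fun r r' => ?_⟩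
  rw [ku_toLp_sub (ku_memLp_hopf hm hu' h0 r) (ku_memLp_hopf hm hu' h0 r')]
  have hmeas : AEStronglyMeasurable (fun x => hopfLax r u x - hopfLax r' u x) m :=
    ((HL.Ifc.hl1_lipschitz hL r).continuous.sub
      (HL.Ifc.hl1_lipschitz hL r').continuous).aestronglyMeasurable
  have hz : ∀ (s : ℝ) (x : X), x ∉ tsupport u → hopfLax s u x = 0 := by
    intro s x hx
    by_contra hne
    exact hx (subset_tsupport u (HL.Ifc.hl4_support_subset hL h0 s hne))
  have h := ku_norm_toLp_le (m := m) (A := tsupport u) (c := 2 * (L : ℝ) ^ 2 * |r - r'|) hmeas hA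
    (fun x => HL.Ifc.hl1_time hL r r' x) (fun x hx => by rw [hz r x hx, hz r' x hx, sub_zero])
  refine h.trans (le_of_eq ?_)
  ring

/-- `Q_r u` is in the form domain -/
theorem ku_U_dom (hm : FiniteOnBoundedSets m) {u : X → ℝ} (hu : LipC u) (h0 : ∀ x, 0 ≤ u x) (r : ℝ) :
    ChL2 m (ku_toLp m (hopfLax r u)) < ∞ := by
  have hl := ku_hopf_LipC hu h0 r
  show cheegerEnergy m (ku_toLp m (hopfLax r u) : X → ℝ) < ∞
  rw [RS.Ifc.rs_cheeger_congr (ku_toLp_coe (ku_memLp_hopf hm hu h0 r))]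
  exact RS.Ifc.rs_cheeger_lt_top_of_bddSupp hm hl.1 (hl.2.isCompact.isBounded.subset (subset_tsupport _))

/-- the discrete Hamilton-Jacobi inequality `hl2_discrete`, tested against a nonnegative element of `L²` -/
theorem ku_disc (hm : FiniteOnBoundedSets m) {u : X → ℝ} (hu : LipC u) (h0 : ∀ x, 0 ≤ u x) {r h : ℝ}
    (hr : 0 < r) (hh : 0 < h) (g : Lp ℝ 2 m) (hg : ∀ᵐ x ∂m, 0 ≤ (g : X → ℝ) x) :
    ⟪ku_toLp m (hopfLax (r + h) u) - ku_toLp m (hopfLax r u), g⟫ ≤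
      -(h * r / (r + h)) * ⟪ku_toLp m (ku_sl u r), g⟫ := by
  have hA := ku_memLp_hopf hm hu h0 (r + h)
  have hB := ku_memLp_hopf hm hu h0 r
  have hS := ku_memLp_sl hm hu h0 r
  have hgm : MemLp (g : X → ℝ) 2 m := Lp.memLp g
  obtain ⟨L, hL⟩ := hu.1
  have hAB : MemLp (fun x => hopfLax (r + h) u x - hopfLax r u x) 2 m := hA.sub hB
  rw [ku_toLp_sub hA hB, ku_inner_toLp hAB g, ku_inner_toLp hS g, ← integral_const_mul]
  refine integral_mono_ae (hAB.integrable_mul hgm) ((hS.integrable_mul hgm).const_mul _) ?_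
  filter_upwards [hg] with y hy
  have hd := HL.Ifc.hl2_discrete hL hr hh y
  have h1 : hopfLax (r + h) u y - hopfLax r u y ≤ -(h * r / (r + h)) * ku_sl u r y := by
    unfold ku_sl; linarith
  calc (hopfLax (r + h) u y - hopfLax r u y) * (g : X → ℝ) y
      ≤ (-(h * r / (r + h)) * ku_sl u r y) * (g : X → ℝ) y := mul_le_mul_of_nonneg_right h1 hy
    _ = -(h * r / (r + h)) * (ku_sl u r y * (g : X → ℝ) y) := by ring

theorem ku_S_nonneg (hm : FiniteOnBoundedSets m) {u : X → ℝ} (hu : LipC u) (h0 : ∀ x, 0 ≤ u x) (r : ℝ)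
    (g : Lp ℝ 2 m) (hg : ∀ᵐ x ∂m, 0 ≤ (g : X → ℝ) x) : 0 ≤ ⟪ku_toLp m (ku_sl u r), g⟫ := by
  rw [ku_inner_toLp (ku_memLp_sl hm hu h0 r) g]
  refine integral_nonneg_of_ae ?_
  filter_upwards [hg] with y hy
  exact mul_nonneg (ku_sl_nonneg u r y) hy

end Claimed.Agent.R210.KU.Hopf
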