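/-
Row 210 (S0432), layer KU (Kuwada lemma), architect helper926.
UPSTREAM NEEDS of the layer, each one proved from the interface of the upstream layer:
  `ku_need_nice`         HF.Ifc.hf3_heat_nice        the heat flow preserves `NiceDens`
  `ku_need_fisher_meas`  HF.Ifc.hf4_fisher_lsc       measurability of the Fisher information along the flow
  `ku_need_fisher_fin`   HF.Ifc.hf4_fisher_int_le    finiteness of its time integral
  `ku_need_hf5`          HF.Ifc.hf5_form_bound       HF5, function level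
  `ku_need_ot8`          OT.Ifc.ot_strong_duality'   strong duality tested on nonnegative compactly supported Lipschitz functions only
Map of the layer: header of `R210/KU/Ifc.lean`.
-/
import Claimed.Agent.R210.Defs2
import Claimed.Agent.R210.RS.Ifc
import Claimed.Agent.R210.OT.Ifc
import Claimed.Agent.R210.HF.Ifc

set_option autoImplicit false

open Claims.C0366 Claims.C0366.WeakHessian
open Set Filter MeasureTheory
open scoped ENNReal NNReal Topology
open Claimed.Agent.R210.Defs Claimed.Agent.R210.Defs2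
open Claimed.Agent.R210.RS.Defs (rs_E rs_lip)

namespace Claimed.Agent.R210.KU.Need

variable {X : Type*} [MetricSpace X] [MeasurableSpace X] [BorelSpace X] [CompleteSpace X]
  [TopologicalSpace.SeparableSpace X] {m : Measure X} {K N : ℝ} {o : X} {a B : ℝ}

/-- HF (N1): the heat flow preserves nice densities (same base point, exponent and sup bound). -/
theorem ku_need_nice (hS : Std m K N) (ha : GoodExp m o a) {ρ₀ : X → ℝ} (hρ : NiceDens m o a B ρ₀)
    {t : ℝ} (ht : 0 ≤ t) : NiceDens m o a B (heatF m t ρ₀) :=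
  HF.Ifc.hf3_heat_nice hS.finite hS.quad ha ht hρ

/-- HF4: measurability of the Fisher information along the flow. -/
theorem ku_need_fisher_meas (hS : Std m K N) (ha : GoodExp m o a) {ρ₀ : X → ℝ} (hρ : NiceDens m o a B ρ₀) :
    Measurable (fun s : ℝ => fisher m (heatF m s ρ₀)) :=
  (HF.Ifc.hf4_fisher_lsc hS.finite hS.quad ha hρ).measurable

/-- HF4(b): the Fisher information is integrable in time along the flow. -/
theorem ku_need_fisher_fin (hS : Std m K N) (ha : GoodExp m o a) {ρ₀ : X → ℝ} (hρ : NiceDens m o a B ρ₀)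
    (t : ℝ) : ∫⁻ s in Ioc 0 t, fisher m (heatF m s ρ₀) < ∞ := by
  rcases le_or_gt 0 t with ht | ht
  · exact (HF.Ifc.hf4_fisher_int_le hS.finite hS.quad ha hρ ht).trans_lt ENNReal.ofReal_lt_top
  · rw [Ioc_eq_empty (by linarith), Measure.restrict_empty, lintegral_zero_measure]
    exact ENNReal.zero_lt_top

/-- HF5. -/
theorem ku_need_hf5 (hS : Std m K N) (ha : GoodExp m o a) {ρ : X → ℝ} (hρ : NiceDens m o a B ρ)
    (hI : fisher m ρ < ∞) {u : X → ℝ} (hu : LipC u) :
    |rs_E m ρ u| ≤ Real.sqrt (∫ x, rs_lip u x ^ 2 * ρ x ∂m) * Real.sqrt (fisher m ρ).toReal := by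
  have hρ2 : MemLp ρ 2 m := HF.Ifc.hf3_nice_memLp ha.1.le hρ
  have hb : RS.Defs.rs_BddSupp u := hu.2.isCompact.isBounded.subset (subset_tsupport u)
  have hu2 : MemLp u 2 m := RS.Ifc.rs_memLp_of_bddSupp hS.finite hu.1 hb
  have hs2 : MemLp (rs_lip u) 2 m := RS.Ifc.rs_memLp_lip_of_bddSupp hS.finite hu.1 hb
  have key := HF.Ifc.hf5_form_bound hS.finite hS.quad hρ.nonneg hρ.le hI hu.1 hu2 hs2
  rw [HF.Ifc.hf0_E_eq hρ2 hu2] at key
  rw [← RS.Ifc.rs_E_toLp hρ2 hu2]
  exact key

/-- OT8'. -/
theorem ku_need_ot8 [ProperSpace X] {μ ν : Measure X} [IsProbabilityMeasure μ] [IsProbabilityMeasure ν]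
    (hμ : HasSecondMoment μ) (hν : HasSecondMoment ν) {B : ℝ}
    (h : ∀ u : X → ℝ, LipC u → (∀ x, 0 ≤ u x) → ∫ y, hopfLax 1 u y ∂ν - ∫ x, u x ∂μ ≤ B) :
    W2sqR μ ν / 2 ≤ B :=
  OT.Ifc.ot_strong_duality' hμ hν h

end Claimed.Agent.R210.KU.Need
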