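/-
Row 210 (S0432), layer KU (Kuwada lemma), architect helper926.   KU1: assembly of the abstract estimate `ku_abs_main` with the
concrete data (Hopf-Lax curve in `L²`, heat flow of a nice density, Fisher information).
Map of the layer: header of `R210/KU/Ifc.lean`.
-/
import Claimed.Agent.R210.KU.Abs
import Claimed.Agent.R210.KU.Need
import Claimed.Agent.R210.KU.Hopf
import Claimed.Agent.R210.KU.Dens

set_option autoImplicit false

open Claims.C0366 Claims.C0366.WeakHessian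
open Set Filter MeasureTheory
open scoped ENNReal NNReal Topology RealInnerProductSpace
open Claimed.Agent.R210.Defs Claimed.Agent.R210.Defs2 Claimed.Agent.R210.HS.Defs
open Claimed.Agent.R210.RS.Defs (rs_E rs_lip)
open Claimed.Agent.R210.KU.Abs Claimed.Agent.R210.KU.Need Claimed.Agent.R210.KU.Lp Claimed.Agent.R210.KU.Hopf
  Claimed.Agent.R210.KU.Dens

namespace Claimed.Agent.R210.KU.One

variable {X : Type*} [MetricSpace X] [MeasurableSpace X] [BorelSpace X] [CompleteSpace X]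
  [TopologicalSpace.SeparableSpace X] {m : Measure X} {K N : ℝ} {o : X} {a B : ℝ}

theorem ku_qform (hS : Std m K N) : QForm (ChL2 m) := RS.Ifc.rs_qform hS.finite hS.quad

/-- HF5 in the form required by `ku_abs_main`. -/
theorem ku_E_le (hS : Std m K N) (ha : GoodExp m o a) {ρ₀ : X → ℝ} (hρ : NiceDens m o a B ρ₀)
    {u : X → ℝ} (hu : LipC u) (hu0 : ∀ x, 0 ≤ u x) {x : ℝ} (hx : 0 < x)
    (hI : fisher m (heatF m x ρ₀) < ∞) (r : ℝ) :
    |bil (ChL2 m) (flow (ChL2 m) x (ku_toLp m ρ₀)) (ku_toLp m (hopfLax r u))| ≤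
      Real.sqrt (2 * ⟪ku_toLp m (ku_sl u r), flow (ChL2 m) x (ku_toLp m ρ₀)⟫) *
        Real.sqrt (fisher m (heatF m x ρ₀)).toReal := by
  have hm := hS.finite
  have hρ2 : MemLp ρ₀ 2 m := ku_nice_memLp hρ
  have hx' : heatF m x ρ₀ = ((flow (ChL2 m) x (ku_toLp m ρ₀) : Lp ℝ 2 m) : X → ℝ) := ku_heatF_eq hρ2 x
  have hv : LipC (hopfLax r u) := ku_hopf_LipC hu hu0 r
  have h1 : bil (ChL2 m) (flow (ChL2 m) x (ku_toLp m ρ₀)) (ku_toLp m (hopfLax r u)) =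
      rs_E m (heatF m x ρ₀) (hopfLax r u) := by
    have e1 : bil (ChL2 m) (flow (ChL2 m) x (ku_toLp m ρ₀)) (ku_toLp m (hopfLax r u)) =
        rs_E m ((flow (ChL2 m) x (ku_toLp m ρ₀) : Lp ℝ 2 m) : X → ℝ)
          ((ku_toLp m (hopfLax r u) : Lp ℝ 2 m) : X → ℝ) :=
      RS.Ifc.rs_bil_eq (flow (ChL2 m) x (ku_toLp m ρ₀)) (ku_toLp m (hopfLax r u))
    rw [e1, hx']
    exact RS.Ifc.rs_E_congr (Filter.EventuallyEq.refl _ _) (ku_toLp_coe (ku_memLp_hopf hm hu hu0 r))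
  have h2 := ku_need_hf5 hS ha (ku_need_nice hS ha hρ hx.le) hI hv
  have h3 : 2 * ⟪ku_toLp m (ku_sl u r), flow (ChL2 m) x (ku_toLp m ρ₀)⟫ =
      ∫ y, rs_lip (hopfLax r u) y ^ 2 * heatF m x ρ₀ y ∂m := by
    rw [ku_inner_toLp (ku_memLp_sl hm hu hu0 r), ← hx', ← integral_const_mul]
    refine integral_congr_ae (Filter.Eventually.of_forall fun y => ?_)
    simp only [ku_sl, rs_lip]
    ring
  rw [h1, h3]
  exact h2

/-- **KU1** -/
theorem ku_one (hS : Std m K N) (ha : GoodExp m o a) {ρ₀ : X → ℝ} (hρ : NiceDens m o a B ρ₀)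
    {s t : ℝ} (hs : 0 ≤ s) (hst : s < t) {u : X → ℝ} (hu : LipC u) (hu0 : ∀ x, 0 ≤ u x) :
    ∫ x, hopfLax 1 u x * heatF m t ρ₀ x ∂m - ∫ x, u x * heatF m s ρ₀ x ∂m ≤
      (t - s) / 2 * (∫⁻ r in Ioc s t, fisher m (heatF m r ρ₀)).toReal := by
  have hQ := ku_qform hS
  have hm := hS.finite
  have hρ2 : MemLp ρ₀ 2 m := ku_nice_memLp hρ
  obtain ⟨CU, hCU⟩ := ku_U_lip hm hu hu0
  have hpos : ∀ x, 0 ≤ x → ∀ᵐ y ∂m, 0 ≤ ((flow (ChL2 m) x (ku_toLp m ρ₀) : Lp ℝ 2 m) : X → ℝ) y := by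
    intro x hx
    have := (ku_need_nice hS ha hρ hx).nonneg
    rwa [ku_heatF_eq hρ2] at this
  have hfin : ∫⁻ r in Ioc s t, fisher m (heatF m r ρ₀) < ∞ :=
    (lintegral_mono_set (Ioc_subset_Ioc_left hs)).trans_lt (ku_need_fisher_fin hS ha hρ t)
  have key := ku_abs_main hQ (ku_toLp m ρ₀) (fun r => ku_toLp m (hopfLax r u)) (fun r => ku_toLp m (ku_sl u r))
    (fun x => fisher m (heatF m x ρ₀)) hCU (fun r => ku_U_dom hm hu hu0 r)
    (fun r h hr hh x hx => ku_disc hm hu hu0 hr hh _ (hpos x hx))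
    (fun r x hx => ku_S_nonneg hm hu hu0 r _ (hpos x hx))
    (ku_need_fisher_meas hS ha hρ)
    (fun x hx hI r => ku_E_le hS ha hρ hu hu0 hx hI r) hs hst hfin
  rw [ku_inner_toLp (ku_memLp_hopf hm hu hu0 1), ku_inner_toLp (ku_memLp_hopf hm hu hu0 0),
    ← ku_heatF_eq hρ2, ← ku_heatF_eq hρ2, HL.Ifc.hl1_zero] at key
  exact key

end Claimed.Agent.R210.KU.One
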