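/-
Row 210 (S0432), layer KU (Kuwada lemma), architect helper926.   INTERFACE: consumers import only this file and
`open Claimed.Agent.R210.KU.Ifc`.
Contract: `git show origin/helper928:docs/R210_wave2.md`, section KU.

EXPORTS
  ku1  : `∫ Q_1 u ρ_t dm - ∫ u ρ_s dm ≤ ((t-s)/2) ∫_s^t I(ρ_r) dr`     (`0 ≤ s < t`, `u ∈ LipC`, `u ≥ 0`, `ρ_r = heatF m r ρ₀`, `ρ₀` nice)
  ku2  : `W2sq (dens m ρ_s) (dens m ρ_t) ≤ (t-s) ∫_s^t I(ρ_r) dr`       (`0 ≤ s ≤ t`; in `ℝ≥0∞`; `[ProperSpace X]`)
  ku2' : the same with `Icc s t` as domain of integration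
  ku_dens_prob, ku_dens_secondMoment, ku_integral_dens, ku_nice_memLp : `dens m ρ` for a nice density `ρ`.
The time integral is `∫⁻ r in Ioc s t, fisher m (heatF m r ρ₀)`.

MAP (file : content)
  KU/Need.lean      upstream needs (HF N1, HF4 measurability and finiteness, HF5, OT8'), to be replaced by the upstream exports
  KU/Ftc.lean       ku_ftc_le : one sided FTC for Lipschitz functions                                   (pure real analysis)
  KU/AbsLip.lean    ku_flow_lipschitz, ku_abs_lipschitz : `x ↦ ⟪U (κ x + b), flow Q x f₀⟫` is Lipschitz on `[s,t]`   (abstract, HS)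
  KU/AbsDeriv.lean  ku_abs_deriv_le : one sided bound of the derivative of that function                  (abstract, HS)
  KU/Abs.lean       ku_young, ku_abs_pos, ku_abs_main : the abstract Kuwada estimate                      (assembly, done)
  KU/Lp.lean        ku_toLp and its calculus (plain functions versus `L²(m)`)
  KU/Hopf.lean      the Hopf-Lax curve in `L²(m)`: ku_sl, ku_U_lip, ku_U_dom, ku_disc, ku_S_nonneg
  KU/Dens.lean      ku_nice_memLp, ku_dens_prob, ku_integral_dens, ku_dens_secondMoment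
  KU/One.lean       ku_E_le (HF5 in abstract form), ku_one (= KU1, assembly, done)
-/
import Claimed.Agent.R210.KU.One

set_option autoImplicit false

open Claims.C0366 Claims.C0366.WeakHessian
open Set Filter MeasureTheory
open scoped ENNReal NNReal Topology
open Claimed.Agent.R210.Defs Claimed.Agent.R210.Defs2
open Claimed.Agent.R210.KU.Need Claimed.Agent.R210.KU.One

namespace Claimed.Agent.R210.KU.Ifc

export Claimed.Agent.R210.KU.Dens (ku_nice_memLp ku_dens_prob ku_integral_dens ku_dens_secondMoment)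

variable {X : Type*} [MetricSpace X] [MeasurableSpace X] [BorelSpace X] [CompleteSpace X]
  [TopologicalSpace.SeparableSpace X] {m : Measure X} {K N : ℝ} {o : X} {a B : ℝ}

/-- **KU1** -/
theorem ku1 (hS : Std m K N) (ha : GoodExp m o a) {ρ₀ : X → ℝ} (hρ : NiceDens m o a B ρ₀)
    {s t : ℝ} (hs : 0 ≤ s) (hst : s < t) {u : X → ℝ} (hu : LipC u) (hu0 : ∀ x, 0 ≤ u x) :
    ∫ x, hopfLax 1 u x * heatF m t ρ₀ x ∂m - ∫ x, u x * heatF m s ρ₀ x ∂m ≤
      (t - s) / 2 * (∫⁻ r in Ioc s t, fisher m (heatF m r ρ₀)).toReal :=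
  ku_one hS ha hρ hs hst hu hu0

/-- **KU2** -/
theorem ku2 [ProperSpace X] (hS : Std m K N) (ha : GoodExp m o a) {ρ₀ : X → ℝ} (hρ : NiceDens m o a B ρ₀)
    {s t : ℝ} (hs : 0 ≤ s) (hst : s ≤ t) :
    W2sq (dens m (heatF m s ρ₀)) (dens m (heatF m t ρ₀)) ≤
      ENNReal.ofReal (t - s) * ∫⁻ r in Ioc s t, fisher m (heatF m r ρ₀) := by
  have hns := ku_need_nice hS ha hρ hs
  have hnt := ku_need_nice hS ha hρ (hs.trans hst)
  have := ku_dens_prob hns
  have := ku_dens_prob hnt
  rcases hst.lt_or_eq with hst | rfl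
  · have hfin : ∫⁻ r in Ioc s t, fisher m (heatF m r ρ₀) < ∞ :=
      (lintegral_mono_set (Ioc_subset_Ioc_left hs)).trans_lt (ku_need_fisher_fin hS ha hρ t)
    have h2s := ku_dens_secondMoment ha hns
    have h2t := ku_dens_secondMoment ha hnt
    have key := ku_need_ot8 h2s h2t
      (B := (t - s) / 2 * (∫⁻ r in Ioc s t, fisher m (heatF m r ρ₀)).toReal) (by
        intro u hu hu0
        rw [ku_integral_dens hnt, ku_integral_dens hns]
        exact ku1 hS ha hρ hs hst hu hu0)
    have hW : W2sq (dens m (heatF m s ρ₀)) (dens m (heatF m t ρ₀)) < ∞ :=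
      OT.Ifc.ot_W2sq_lt_top h2s h2t
    have hc : 0 ≤ t - s := by linarith
    rw [← ENNReal.ofReal_toReal hW.ne, ← ENNReal.ofReal_toReal hfin.ne, ← ENNReal.ofReal_mul hc]
    refine ENNReal.ofReal_le_ofReal ?_
    unfold W2sqR at key
    linarith
  · rw [OT.Ifc.ot_W2sq_self]
    exact zero_le

/-- KU2 with a closed interval of integration -/
theorem ku2' [ProperSpace X] (hS : Std m K N) (ha : GoodExp m o a) {ρ₀ : X → ℝ} (hρ : NiceDens m o a B ρ₀)
    {s t : ℝ} (hs : 0 ≤ s) (hst : s ≤ t) :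
    W2sq (dens m (heatF m s ρ₀)) (dens m (heatF m t ρ₀)) ≤
      ENNReal.ofReal (t - s) * ∫⁻ r in Icc s t, fisher m (heatF m r ρ₀) :=
  (ku2 hS ha hρ hs hst).trans (mul_le_mul_right (lintegral_mono_set Ioc_subset_Icc_self) _)

end Claimed.Agent.R210.KU.Ifc
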